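import Vale.Agent.P181.RH.H590.Pre
import Vale.Agent.P181.MD.H514.DefsD
import Vale.Agent.P181.DX.H556.Sec

set_option autoImplicit false

/-!
# P181, RH: what remains for `b ≥ (1 + δ) a` and a tail of at least `a polylog` boxes
-/

open Finset

namespace Vale.Agent.P181.RH.H590

open Vale.Agent.P181.H280 (plethMult)
open Vale.Agent.P181.T4 (ex)
open Vale.Agent.P181.PL (dn PolyS)
open Vale.Agent.P181.LF

lemma cube_root {a : ℕ} {X : ℝ} (hX : 2 ≤ X) (hXa : X ^ 14 ≤ a) :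
    3 * X ^ 3 * (a : ℝ) ^ (5 / 3 : ℝ) ≤ (a : ℝ) ^ 2 ∧ (a : ℝ) ≤ (a : ℝ) ^ (5 / 3 : ℝ) := by
  have ha0 : (0 : ℝ) ≤ a := Nat.cast_nonneg a
  have ha1 : (1 : ℝ) ≤ a := le_trans (one_le_pow₀ (by linarith)) hXa
  obtain ⟨z, hz⟩ : ∃ z : ℝ, z = (a : ℝ) ^ (1 / 3 : ℝ) := ⟨_, rfl⟩
  have hz0 : 0 ≤ z := by rw [hz]; positivity
  have hz3 : z ^ 3 = a := by
    rw [hz, ← Real.rpow_natCast, ← Real.rpow_mul ha0]
    norm_num
  have hz5 : (a : ℝ) ^ (5 / 3 : ℝ) = z ^ 5 := by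
    rw [hz, ← Real.rpow_natCast, ← Real.rpow_mul ha0]
    norm_num
  have h27 : (3 * X ^ 3) ^ 3 ≤ z ^ 3 := by
    rw [hz3]
    refine le_trans ?_ hXa
    have h5 : (27 : ℝ) ≤ X ^ 5 := by
      calc (27 : ℝ) ≤ 2 ^ 5 := by norm_num
        _ ≤ X ^ 5 := pow_le_pow_left₀ (by norm_num) hX 5
    calc (3 * X ^ 3) ^ 3 = 27 * X ^ 9 := by ring
      _ ≤ X ^ 5 * X ^ 9 := mul_le_mul_of_nonneg_right h5 (by positivity)
      _ = X ^ 14 := by ring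
  have h3 : 3 * X ^ 3 ≤ z := le_of_pow_le_pow_left₀ (by norm_num) hz0 h27
  constructor
  · rw [hz5]
    calc 3 * X ^ 3 * z ^ 5 ≤ z * z ^ 5 := mul_le_mul_of_nonneg_right h3 (by positivity)
      _ = (z ^ 3) ^ 2 := by ring
      _ = (a : ℝ) ^ 2 := by rw [hz3]
  · calc (a : ℝ) = (a : ℝ) ^ (1 : ℝ) := (Real.rpow_one _).symm
      _ ≤ (a : ℝ) ^ (5 / 3 : ℝ) := Real.rpow_le_rpow_of_exponent_le ha1 (by norm_num)

lemma one_le_pow_log (a : ℕ) (c : ℕ) : (1 : ℝ) ≤ (1 + Real.log a) ^ c :=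
  one_le_pow₀ (one_le_L a)

lemma range_min_eq {n k : ℕ} {lam : Fin n → ℕ} {mu : Fin k → ℕ} (hex : ∀ i, ex mu i = ex lam i)
    (b : ℕ) : (∑ j ∈ range k, min b (ex mu j)) = ∑ j ∈ range n, min b (ex lam j) := by
  have e1 : ∀ (l : ℕ) (nu : Fin l → ℕ) (N : ℕ), l ≤ N →
      ∑ i ∈ range l, min b (ex nu i) = ∑ i ∈ range N, min b (ex nu i) := by
    intro l nu N hN
    refine sum_subset (range_subset_range.2 hN) fun i _ hi => ?_
    rw [ex_zero nu (by simpa using hi)]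
    simp
  rw [e1 k mu (max k n) (le_max_left _ _), e1 n lam (max k n) (le_max_right _ _)]
  exact sum_congr rfl fun i _ => by rw [hex i]

lemma cut_lt {δ C2 C0 U S a b : ℝ} (hδ : 0 < δ) (hC0 : C0 = 5 + C2 * (1 + δ) / δ)
    (hU : 0 ≤ U) (hS0 : 0 ≤ S) (hbp : 0 < b) (hab : (1 + δ) * a ≤ b)
    (hfat : (b - a) * S < C2 * U * b ^ 2) : S < C0 * U * b := by
  have e2 : δ / (1 + δ) * b ≤ b - a := by
    have e3 : (1 + δ) * (δ / (1 + δ) * b) = δ * b := by field_simp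
    have e4 : (1 + δ) * (b - a) = b + δ * b - (1 + δ) * a := by ring
    have e5 : (1 + δ) * (δ / (1 + δ) * b) ≤ (1 + δ) * (b - a) := by
      rw [e3, e4]
      linarith
    exact le_of_mul_le_mul_left e5 (by linarith)
  have e6 : δ / (1 + δ) * b * S < C2 * U * b ^ 2 :=
    lt_of_le_of_lt (mul_le_mul_of_nonneg_right e2 hS0) hfat
  have hq : 0 < δ / (1 + δ) := by positivity
  have e7 : δ / (1 + δ) * (b * S) < δ / (1 + δ) * (b * (C0 * U * b)) := by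
    have e8 : δ / (1 + δ) * (b * S) = δ / (1 + δ) * b * S := by ring
    rw [e8]
    refine lt_of_lt_of_le e6 ?_
    have e9 : C2 ≤ δ / (1 + δ) * C0 := by
      rw [hC0]
      have e10 : δ / (1 + δ) * (5 + C2 * (1 + δ) / δ) = δ / (1 + δ) * 5 + C2 := by
        field_simp
      rw [e10]
      linarith
    have e11 : 0 ≤ U * b ^ 2 := by positivity
    calc C2 * U * b ^ 2 = C2 * (U * b ^ 2) := by ring
      _ ≤ δ / (1 + δ) * C0 * (U * b ^ 2) := mul_le_mul_of_nonneg_right e9 e11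
      _ = δ / (1 + δ) * (b * (C0 * U * b)) := by ring
  have e12 : b * S < b * (C0 * U * b) := lt_of_mul_lt_mul_left e7 hq.le
  exact lt_of_mul_lt_mul_left e12 hbp.le

lemma second_row {X R a b z D w x1 x2 : ℝ} (hX : 1 ≤ X) (hRX : R ≤ X)
    (haz : a ≤ z) (hz0 : 0 ≤ z) (hb0 : 0 ≤ b) (hbX : b ≤ X * a) (hroot : 3 * X ^ 3 * z ≤ a ^ 2)
    (hx2 : x2 ≤ z) (hx20 : 0 ≤ x2) (hD : D ≤ R * x2 + R * b) (hw : w = x1 + D)
    (hwX : 2 * a ^ 2 ≤ X * w) : a ^ 2 + X * x2 ≤ X * x1 := by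
  have hX0 : 0 ≤ X := by linarith
  have e1 : D ≤ X * z + X * (X * z) := by
    have e2 : R * x2 ≤ X * z := mul_le_mul hRX hx2 hx20 hX0
    have e3 : R * b ≤ X * (X * z) := by
      refine mul_le_mul hRX (hbX.trans ?_) hb0 hX0
      exact mul_le_mul_of_nonneg_left haz hX0
    linarith
  have e4 : X * D ≤ X * (X * z + X * (X * z)) := mul_le_mul_of_nonneg_left e1 hX0
  have e5 : X * x2 ≤ X * z := mul_le_mul_of_nonneg_left hx2 hX0
  have e6 : X * (X * z + X * (X * z)) + X * z ≤ 3 * X ^ 3 * z := by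
    have f1 : X ≤ X ^ 3 := by
      calc X = X ^ 1 := (pow_one _).symm
        _ ≤ X ^ 3 := pow_le_pow_right₀ hX (by norm_num)
    have f2 : X ^ 2 ≤ X ^ 3 := pow_le_pow_right₀ hX (by norm_num)
    have f3 : X * z ≤ X ^ 3 * z := mul_le_mul_of_nonneg_right f1 hz0
    have f4 : X ^ 2 * z ≤ X ^ 3 * z := mul_le_mul_of_nonneg_right f2 hz0
    calc X * (X * z + X * (X * z)) + X * z = X ^ 2 * z + X ^ 3 * z + X * z := by ring
      _ ≤ X ^ 3 * z + X ^ 3 * z + X ^ 3 * z := by linarith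
      _ = 3 * X ^ 3 * z := by ring
  rw [hw, mul_add] at hwX
  linarith

lemma tail_gap {X R a b D : ℝ} {K : ℕ} (hX : 2 ≤ X) (hR : 0 ≤ R) (hRX : R ≤ X) (ha : 0 < a)
    (hb0 : 0 ≤ b) (hbX : b ≤ X * a) (hD : 4 * X ^ (K + 2) * a ≤ D) :
    R * (R * (a * X ^ K) + b) + R * b < D := by
  have hX0 : 0 < X := by linarith
  have haX : 0 ≤ a * X ^ K := by positivity
  have e1 : R * (R * (a * X ^ K) + b) + R * b ≤
      X * (X * (a * X ^ K) + X * a) + X * (X * a) := by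
    have e2 : R * (a * X ^ K) ≤ X * (a * X ^ K) := mul_le_mul_of_nonneg_right hRX haX
    have e3 : R * (R * (a * X ^ K) + b) ≤ X * (X * (a * X ^ K) + X * a) :=
      mul_le_mul hRX (by linarith) (by positivity) hX0.le
    have e4 : R * b ≤ X * (X * a) := mul_le_mul hRX hbX hb0 hX0.le
    linarith
  have hXX : X * (X * a) * 1 ≤ X ^ (K + 2) * a := by
    calc X * (X * a) * 1 = X ^ 2 * a := by ring
      _ ≤ X ^ (K + 2) * a :=
        mul_le_mul_of_nonneg_right (pow_le_pow_right₀ (by linarith) (by omega)) ha.le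
  have e5 : X * (X * (a * X ^ K) + X * a) + X * (X * a) =
      X ^ (K + 2) * a + 2 * (X * (X * a) * 1) := by ring
  have e6 : 0 < X ^ (K + 2) * a := by positivity
  linarith

lemma small_false {M C3 A a b T D : ℝ} {e c3 K : ℕ} (hM : 0 ≤ M) (hC3 : 0 < C3) (hT : 1 ≤ T)
    (hce : c3 ≤ e) (ha : 1 ≤ a) (haA : a ≤ A)
    (hbig : b < C3 * a * T ^ c3) (hD2 : D ≤ a * b)
    (hd : (4 * (M + 1) ^ (K + 2) + C3 * A) * T ^ (e * (K + 2)) * a ≤ D) : False := by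
  have ha0 : 0 ≤ a := by linarith
  have e1 : (4 * (M + 1) ^ (K + 2) + C3 * A) * T ^ (e * (K + 2)) * a ≤
      C3 * a * T ^ (e * (K + 2)) * a := by
    refine hd.trans (hD2.trans ?_)
    have e2 : T ^ c3 ≤ T ^ (e * (K + 2)) := pow_le_pow_right₀ hT (by nlinarith)
    calc a * b ≤ a * (C3 * a * T ^ c3) := mul_le_mul_of_nonneg_left hbig.le ha0
      _ = C3 * a * T ^ c3 * a := by ring
      _ ≤ C3 * a * T ^ (e * (K + 2)) * a := by gcongr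
  have e3 : 0 < T ^ (e * (K + 2)) * a := by positivity
  have e4 : 4 * (M + 1) ^ (K + 2) + C3 * A ≤ C3 * a := by
    refine le_of_mul_le_mul_right ?_ e3
    calc (4 * (M + 1) ^ (K + 2) + C3 * A) * (T ^ (e * (K + 2)) * a) =
          (4 * (M + 1) ^ (K + 2) + C3 * A) * T ^ (e * (K + 2)) * a := by ring
      _ ≤ _ := e1
      _ = C3 * a * (T ^ (e * (K + 2)) * a) := by ring
  have e6 : C3 * a ≤ C3 * A := mul_le_mul_of_nonneg_left haA hC3.le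
  have e7 : 0 < 4 * (M + 1) ^ (K + 2) := by positivity
  linarith

lemma tail_pow {M C3 A a X T D : ℝ} {e K : ℕ} (hC3 : 0 < C3) (hT : 1 ≤ T)
    (ha : 0 ≤ a) (hA : 0 ≤ A) (hX0 : 0 ≤ X) (hX2 : X ≤ (M + 1) * T ^ e)
    (hd : (4 * (M + 1) ^ (K + 2) + C3 * A) * T ^ (e * (K + 2)) * a ≤ D) :
    4 * X ^ (K + 2) * a ≤ D := by
  refine le_trans ?_ hd
  have e1 : X ^ (K + 2) ≤ (M + 1) ^ (K + 2) * T ^ (e * (K + 2)) := by
    calc X ^ (K + 2) ≤ ((M + 1) * T ^ e) ^ (K + 2) := pow_le_pow_left₀ hX0 hX2 _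
      _ = (M + 1) ^ (K + 2) * T ^ (e * (K + 2)) := by rw [mul_pow, pow_mul]
  have e2 : 0 ≤ C3 * A * T ^ (e * (K + 2)) := by positivity
  have e3 : 4 * X ^ (K + 2) ≤ (4 * (M + 1) ^ (K + 2) + C3 * A) * T ^ (e * (K + 2)) := by
    calc 4 * X ^ (K + 2) ≤ 4 * ((M + 1) ^ (K + 2) * T ^ (e * (K + 2))) := by linarith
      _ ≤ 4 * ((M + 1) ^ (K + 2) * T ^ (e * (K + 2))) + C3 * A * T ^ (e * (K + 2)) := by
          linarith
      _ = _ := by ring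
  exact mul_le_mul_of_nonneg_right e3 ha

/-- The parameter `X`. -/
lemma exists_X {C0 C1 C3 X₀ T M : ℝ} {c1 c2 c3 e E : ℕ} {a b : ℕ} (hC0 : 5 ≤ C0)
    (hC1 : 1 ≤ C1) (hC3 : 0 < C3) (hX₀ : 0 ≤ X₀) (hM : M = C0 + 1 + C3 + 2 * C1 + X₀)
    (hT : 1 ≤ T) (h1 : c1 ≤ e) (h2 : c2 ≤ e) (h3 : c3 ≤ e)
    (hpow : (M + 1) ^ (E + 14) * (T ^ e) ^ (E + 14) ≤ a) (hb : (b : ℝ) < C3 * a * T ^ c3) :
    ∃ X : ℕ, X₀ ≤ X ∧ (2 : ℝ) ≤ X ∧ C0 * T ^ c2 + 1 ≤ X ∧ 2 * (C1 * T ^ c1) ≤ X ∧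
      (b : ℝ) ≤ X * a ∧ (X : ℝ) ≤ (M + 1) * T ^ e ∧ (X : ℝ) ^ (E + 14) ≤ a := by
  have hm : ∀ {i : ℕ}, i ≤ e → T ^ i ≤ T ^ e := fun h => pow_le_pow_right₀ hT h
  obtain ⟨P, hPd⟩ : ∃ P : ℝ, P = T ^ e := ⟨_, rfl⟩
  have hP1 : 1 ≤ P := by rw [hPd]; exact one_le_pow₀ hT
  have hM8 : 8 ≤ M := by linarith
  have hX1 := Nat.le_ceil (M * P)
  have hX2 := (Nat.ceil_lt_add_one (show 0 ≤ M * P by positivity)).le
  have hMP : C0 * P + P + C3 * P + 2 * (C1 * P) + X₀ * P ≤ (⌈M * P⌉₊ : ℝ) := by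
    refine le_trans (le_of_eq ?_) hX1
    rw [hM]
    ring
  have g0 : 5 ≤ C0 * P := by nlinarith
  have g1 : 1 ≤ C1 * P := one_le_mul_of_one_le_of_one_le hC1 hP1
  have g3 : 0 < C3 * P := by positivity
  have gx : X₀ ≤ X₀ * P := le_mul_of_one_le_right hX₀ hP1
  have f2 : C0 * T ^ c2 ≤ C0 * P := by
    rw [hPd]
    exact mul_le_mul_of_nonneg_left (hm h2) (by linarith)
  have f1 : C1 * T ^ c1 ≤ C1 * P := by
    rw [hPd]
    exact mul_le_mul_of_nonneg_left (hm h1) (by linarith)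
  have f3 : C3 * T ^ c3 ≤ C3 * P := by
    rw [hPd]
    exact mul_le_mul_of_nonneg_left (hm h3) hC3.le
  have ha0 : (0 : ℝ) ≤ a := Nat.cast_nonneg a
  have hXu : (⌈M * P⌉₊ : ℝ) ≤ (M + 1) * P := by linarith
  refine ⟨⌈M * P⌉₊, by linarith, by linarith, by linarith, by linarith, ?_, ?_, ?_⟩
  · have e2 : C3 * T ^ c3 ≤ (⌈M * P⌉₊ : ℝ) := by linarith
    calc (b : ℝ) ≤ C3 * a * T ^ c3 := hb.le
      _ = (C3 * T ^ c3) * a := by ring
      _ ≤ (⌈M * P⌉₊ : ℝ) * a := mul_le_mul_of_nonneg_right e2 ha0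
  · rw [← hPd]
    exact hXu
  · refine le_trans ?_ hpow
    rw [← mul_pow, ← hPd]
    exact pow_le_pow_left₀ (Nat.cast_nonneg _) hXu _

/-- **The reduction.** Either `F(λ)` is known, or there is a gap of length `a X ^ K` below row
`m ≥ 3`, and the difference of the second and the third row is at least `a ^ 2 / X`. -/
theorem reduce (hM : MD.H514.ThirdLongD) (hF : DX.H556.FatLog) (hU : DX.H556.UniY) (hP : PolyS)
    {δ : ℝ} (hδ : 0 < δ) (K E X₀ : ℕ) :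
    ∃ (C : ℝ) (c : ℕ), 0 < C ∧ ∀ a b : ℕ, (1 + δ) * a ≤ b → ∀ (n : ℕ) (lam : Fin n → ℕ),
      C * (1 + Real.log a) ^ c * a ≤ (dn lam 2 : ℝ) →
      plethMult a b n lam ≤ plethMult b a n lam ∨
      ∃ (X m k : ℕ) (mu : Fin k → ℕ), X₀ ≤ X ∧ k ≤ a ∧ Antitone mu ∧ ∑ i, mu i = a * b ∧
        plethMult a b n lam = plethMult a b k mu ∧ plethMult b a n lam = plethMult b a k mu ∧
        2 ≤ X ∧ X ^ E ≤ a ∧ b ≤ X * a ∧ 3 ≤ m ∧ m ≤ k ∧ m ≤ X ∧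
        a ^ 2 + X * ex mu 2 ≤ X * ex mu 1 ∧ a * X ^ K + ex mu m ≤ ex mu (m - 1) ∧
        ((ex mu 2 : ℕ) : ℝ) < (a : ℝ) ^ (5 / 3 : ℝ) := by
  obtain ⟨a1, h1⟩ := hM δ hδ
  obtain ⟨C2, c2, hC2, h2⟩ := hF
  obtain ⟨C1, c1, hC1, hU1⟩ := hU
  obtain ⟨C3, c3, hC3, h3⟩ := hP
  obtain ⟨C0, hC0⟩ : ∃ C0 : ℝ, C0 = 5 + C2 * (1 + δ) / δ := ⟨_, rfl⟩
  have hC05 : 5 ≤ C0 := by
    have : 0 < C2 * (1 + δ) / δ := by positivity
    linarith
  obtain ⟨M, hMd⟩ : ∃ M : ℝ, M = C0 + 1 + C3 + 2 * C1 + X₀ := ⟨_, rfl⟩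
  have hX₀ : (0 : ℝ) ≤ X₀ := Nat.cast_nonneg _
  have hM0 : 0 ≤ M := by linarith
  obtain ⟨e, he⟩ : ∃ e : ℕ, e = c1 + c2 + c3 := ⟨_, rfl⟩
  obtain ⟨A1, hA1⟩ := polylog_le ((M + 1) ^ (E + 14)) (e * (E + 14))
  obtain ⟨A, hA⟩ : ∃ A : ℕ, A = A1 + a1 + 1 := ⟨_, rfl⟩
  refine ⟨4 * (M + 1) ^ (K + 2) + C3 * A, e * (K + 2), by positivity, ?_⟩
  intro a b hab n lam hd
  by_cases hz : plethMult a b n lam = 0
  · left
    rw [hz]
    exact Nat.zero_le _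
  obtain ⟨hl0, hs0, -⟩ := H530.zero_stmt a b n lam hz
  obtain ⟨k, mu, hka, hl, hs, hex, hm1, hm2⟩ := trunc hz
  have hdn : dn mu 2 = dn lam 2 := dn_eq_of_ex hex 2
  have ha0 : (0 : ℝ) ≤ a := Nat.cast_nonneg a
  have hb0 : (0 : ℝ) ≤ b := Nat.cast_nonneg b
  have hab1 : a ≤ b := by
    have : (a : ℝ) ≤ b := by nlinarith
    exact_mod_cast this
  -- polylog
  by_cases hbig : C3 * a * (1 + Real.log a) ^ c3 ≤ b
  · left
    exact h3 a b hbig n lam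
  rw [not_le] at hbig
  have hapos : 0 < a := by
    rcases Nat.eq_zero_or_pos a with h0 | h0
    · exfalso
      subst h0
      simp at hbig
      linarith
    · exact h0
  have haR : (1 : ℝ) ≤ a := by exact_mod_cast hapos
  have hbpos : 0 < b := by omega
  have hD2 : (dn lam 2 : ℝ) ≤ a * b := by
    have e1 : dn lam 2 ≤ dn lam 0 := PL.dn_anti lam (by omega)
    rw [PL.dn_zero, hs0] at e1
    exact_mod_cast e1
  obtain ⟨T, hT⟩ : ∃ T : ℝ, T = 1 + Real.log a := ⟨_, rfl⟩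
  have hT1 : 1 ≤ T := by rw [hT]; exact one_le_L a
  rw [← hT] at hd hbig
  -- large `a`
  rcases Nat.lt_or_ge a A with haA | haA
  · exact (small_false hM0 hC3 hT1 (by omega) haR (by exact_mod_cast haA.le) hbig hD2 hd).elim
  -- the third row
  by_cases hthird : (a : ℝ) ^ (5 / 3 : ℝ) ≤ T4.ex lam 2
  · left
    exact h1 a b n lam (by omega) hab hthird
  rw [not_le] at hthird
  -- fat
  by_cases hfat : C2 * (1 + Real.log a) ^ c2 * (b : ℝ) ^ 2 ≤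
      ((b : ℝ) - a) * ∑ i, ((min b (lam i) : ℕ) : ℝ)
  · left
    exact h2 a b n lam hab1 hfat
  rw [not_le, min_range, ← hT, ← range_min_eq hex b] at hfat
  have hpow := hA1 a (by omega)
  rw [← hT, pow_mul] at hpow
  have he1 : c1 ≤ e := by omega
  have he2 : c2 ≤ e := by omega
  have he3 : c3 ≤ e := by omega
  obtain ⟨X, hXX₀, hX2', hRX, hCX, hbX, hX2, hXE⟩ := exists_X (E := E) hC05 hC1 hC3
    hX₀ hMd hT1 he1 he2 he3 hpow hbig
  have hX1 : (1 : ℝ) ≤ X := by linarith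
  have hX14 : (X : ℝ) ^ 14 ≤ a := le_trans (pow_le_pow_right₀ hX1 (by omega)) hXE
  have hXE' : X ^ E ≤ a := by
    have e1 : (X : ℝ) ^ E ≤ a := le_trans (pow_le_pow_right₀ hX1 (by omega)) hXE
    exact_mod_cast e1
  obtain ⟨hroot, haroot⟩ := cube_root hX2' hX14
  obtain ⟨R, hR⟩ : ∃ R : ℝ, R = C0 * T ^ c2 := ⟨_, rfl⟩
  have hTc : 1 ≤ T ^ c2 := one_le_pow₀ hT1
  have hR5 : 5 ≤ R := by
    rw [hR]
    exact hC05.trans (le_mul_of_one_le_right (by linarith) hTc)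
  rw [← hR] at hRX
  have hRX' : R ≤ X := by linarith
  have hdX := tail_pow hC3 hT1 ha0 (Nat.cast_nonneg A) (by linarith) hX2 hd
  have hSR : ((∑ j ∈ range k, min b (ex mu j) : ℕ) : ℝ) < R * b := by
    rw [hR]
    exact cut_lt hδ hC0 (by linarith) (Nat.cast_nonneg _) (by exact_mod_cast hbpos) hab hfat
  have haX : (0 : ℝ) ≤ (a : ℝ) * X ^ K := by positivity
  obtain ⟨hD2R, i, hi1, hi2, hi3⟩ := find_gap2 hl haX hR5 hbpos hSR (by
    rw [hdn]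
    exact tail_gap hX2' (by linarith) hRX' (by linarith) hb0 hbX hdX)
  rw [hdn, hex 2] at hD2R
  -- the second row
  have hDa : (a : ℝ) ≤ dn lam 2 := by
    refine le_trans ?_ hdX
    have e1 : (1 : ℝ) ≤ (X : ℝ) ^ (K + 2) := one_le_pow₀ hX1
    refine le_mul_of_one_le_left ha0 ?_
    linarith
  by_cases hy : C1 * T ^ c1 * (dn lam 1 : ℝ) ≤ (a : ℝ) ^ 2
  · left
    have e1 : (a : ℝ) ^ 2 ≤ (b : ℝ) ^ 2 :=
      pow_le_pow_left₀ ha0 (by exact_mod_cast hab1) 2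
    have e2 : (a : ℝ) ^ 2 ≤ (dn lam 2 : ℝ) ^ 2 := pow_le_pow_left₀ ha0 hDa 2
    rw [hT] at hy
    exact hU1 a b hab1 n lam (Or.inr (Or.inr (Or.inr ⟨hy.trans e1, hy.trans e2⟩)))
  rw [not_le] at hy
  right
  have hw : (dn lam 1 : ℝ) = ex lam 1 + dn lam 2 := by
    have := LF.dn_succ lam 1
    exact_mod_cast this
  have hwX : 2 * (a : ℝ) ^ 2 ≤ X * (dn lam 1 : ℝ) := by
    have e2 : 2 * (C1 * T ^ c1) * (dn lam 1 : ℝ) ≤ X * (dn lam 1 : ℝ) :=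
      mul_le_mul_of_nonneg_right hCX (Nat.cast_nonneg _)
    linarith
  have hsec : (a : ℝ) ^ 2 + X * (ex lam 2 : ℝ) ≤ X * (ex lam 1 : ℝ) :=
    second_row hX1 hRX' haroot (ha0.trans haroot) hb0 hbX hroot hthird.le
      (Nat.cast_nonneg _) hD2R hw hwX
  have hXKp : (0 : ℝ) < (a : ℝ) * X ^ K := by
    have : (0 : ℝ) < X := by linarith
    have : (0 : ℝ) < a := by linarith
    positivity
  have hgapR : (a : ℝ) * X ^ K + ex mu (i + 1) ≤ ex mu i := by linarith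
  have hgapN : a * X ^ K + ex mu (i + 1) ≤ ex mu i := by exact_mod_cast hgapR
  refine ⟨X, i + 1, k, mu, by exact_mod_cast hXX₀, hka, hl, hs, hm1, hm2,
    by exact_mod_cast hX2', hXE', by exact_mod_cast hbX, by omega, ?_, ?_, ?_, ?_, ?_⟩
  · by_contra hcon
    rw [ex_zero mu (j := i) (by omega)] at hgapN
    have e1 : 0 < a * X ^ K := by exact_mod_cast hXKp
    omega
  · have e1 : ((i + 1 : ℕ) : ℝ) ≤ X := by
      push_cast
      linarith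
    exact_mod_cast e1
  · rw [hex 1, hex 2]
    exact_mod_cast hsec
  · rw [Nat.add_sub_cancel]
    exact hgapN
  · rw [hex 2]
    exact hthird

end Vale.Agent.P181.RH.H590
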