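import Vale.Agent.P181.RH.Defs
import Vale.Agent.P181.RH.H590.Red

set_option autoImplicit false

/-!
# P181, RH, block FIN: from [CORE], the theorem for a long third row, `FatLog`, `UniY`, `PolyS`
-/

open Finset

namespace Vale.Agent.P181.RH.H590

open Vale.Agent.P181.H280 (plethMult)
open Vale.Agent.P181.T4 (ex)
open Vale.Agent.P181.PL (dn PolyS)
open Vale.Agent.P181.LF

/-- **[FIN]** -/
theorem fin_of (hC : CoreRH) (hM : MD.H514.ThirdLongD) (hF : DX.H556.FatLog)
    (hU : DX.H556.UniY) (hP : PolyS) : FinRH := by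
  intro δ hδ
  obtain ⟨d, hd⟩ : ∃ d : ℝ, d = min δ 1 := ⟨_, rfl⟩
  have hd0 : 0 < d := by
    rw [hd]
    exact lt_min hδ one_pos
  have hd1 : d ≤ 1 := by
    rw [hd]
    exact min_le_right _ _
  have hdδ : d ≤ δ := by
    rw [hd]
    exact min_le_left _ _
  obtain ⟨K, X₀, hcore⟩ := hC d hd0 hd1
  obtain ⟨C, c, hC0, hred⟩ := reduce hM hF hU hP hd0 K K X₀
  refine ⟨C, c, hC0, fun a b hab n lam hlam => ?_⟩
  have hab' : (1 + d) * (a : ℝ) ≤ b :=
    le_trans (mul_le_mul_of_nonneg_right (by linarith) (Nat.cast_nonneg a)) hab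
  rcases hred a b hab' n lam hlam with h | ⟨X, m, k, mu, hX, hka, hl, hs, hm1, hm2, -, hXK, hbX,
    hm3, hmk, hmX, hsec, hgap, -⟩
  · exact h
  obtain ⟨n', rfl⟩ : ∃ n', k = n' + 2 := ⟨k - 2, by omega⟩
  have hanti := ex_anti hl
  have h1 : ex mu 1 = mu 1 := ex_coe mu 1
  rw [hm1, hm2]
  refine hcore a b X m n' mu hX hXK hl hs hka hab' hbX hm3 hmX hmk ?_ ?_
  · intro i hi
    have e1 : mu i ≤ ex mu 2 := by
      rw [← ex_coe mu i]
      exact hanti hi
    rw [← h1]
    exact le_trans (Nat.add_le_add_left (Nat.mul_le_mul_left X e1) _) hsec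
  · intro i hi
    have e1 : ex mu (m - 1) ≤ mu i := by
      rw [← ex_coe mu i]
      exact hanti (by omega)
    have e2 : X ^ K * a = a * X ^ K := mul_comm _ _
    refine ⟨by omega, fun j hj => ?_⟩
    have e3 : mu j ≤ ex mu m := by
      rw [← ex_coe mu j]
      exact hanti hj
    omega

end Vale.Agent.P181.RH.H590
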