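import Vale.Agent.P181.LF.Union
import Vale.Agent.P181.H530.Pad

set_option autoImplicit false

/-!
# P181, RH: preparations for the union: at most `a` rows, a gap below row two
-/

open Finset

namespace Vale.Agent.P181.RH.H590

open Vale.Agent.P181.H280 (plethMult)
open Vale.Agent.P181.T4 (ex)
open Vale.Agent.P181.PL (dn)
open Vale.Agent.P181.LF

/-- `dn` depends on `ex` only. -/
lemma dn_eq_of_ex {n k : ℕ} {lam : Fin n → ℕ} {mu : Fin k → ℕ} (h : ∀ i, ex mu i = ex lam i)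
    (j : ℕ) : dn mu j = dn lam j := by
  rw [LF.dn_range, LF.dn_range]
  have h1 : ∀ (l : ℕ) (nu : Fin l → ℕ) (N : ℕ), l ≤ N →
      ∑ i ∈ range l, (if j ≤ i then ex nu i else 0) =
        ∑ i ∈ range N, if j ≤ i then ex nu i else 0 := by
    intro l nu N hN
    refine sum_subset (range_subset_range.2 hN) fun i _ hi => ?_
    rw [ex_zero nu (by simpa using hi)]
    simp
  rw [h1 k mu (max k n) (le_max_left _ _), h1 n lam (max k n) (le_max_right _ _)]
  exact sum_congr rfl fun i _ => by rw [h i]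

/-- At most `a` rows are enough. -/
lemma trunc {a b n : ℕ} {lam : Fin n → ℕ} (hz : plethMult a b n lam ≠ 0) :
    ∃ (k : ℕ) (mu : Fin k → ℕ), k ≤ a ∧ Antitone mu ∧ ∑ i, mu i = a * b ∧
      (∀ i, ex mu i = ex lam i) ∧ plethMult a b n lam = plethMult a b k mu ∧
      plethMult b a n lam = plethMult b a k mu := by
  obtain ⟨hanti, hsum, hrow⟩ := H530.zero_stmt a b n lam hz
  rcases le_or_gt n a with hn | hn
  · exact ⟨n, lam, hn, hanti, hsum, fun _ => rfl, rfl, rfl⟩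
  obtain ⟨l, rfl⟩ := Nat.exists_eq_add_of_lt hn
  obtain ⟨mu, hmu⟩ : ∃ mu : Fin a → ℕ, mu = fun j : Fin a => lam ⟨(j : ℕ), by omega⟩ :=
    ⟨_, rfl⟩
  have hlam' : lam = fun i : Fin (a + (l + 1)) =>
      if h : (i : ℕ) < a then mu ⟨i, h⟩ else 0 := by
    funext i
    by_cases hi : (i : ℕ) < a
    · rw [dif_pos hi, hmu]
    · rw [dif_neg hi]
      exact hrow i (by omega)
  refine ⟨a, mu, le_rfl, ?_, ?_, ?_, ?_, ?_⟩
  · intro i j hij
    have hij' : (i : ℕ) ≤ j := hij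
    rw [hmu]
    exact hanti (show (⟨i, by omega⟩ : Fin (a + l + 1)) ≤ ⟨j, by omega⟩ from hij')
  · rw [← hsum]
    have h3 : ∑ i : Fin (a + (l + 1)), lam i = ∑ i : Fin a, lam (Fin.castAdd (l + 1) i) +
        ∑ i : Fin (l + 1), lam (Fin.natAdd a i) := Fin.sum_univ_add _
    have h2 : ∑ i : Fin (l + 1), lam (Fin.natAdd a i) = 0 := by
      apply Finset.sum_eq_zero
      intro i _
      exact hrow _ (by simp)
    rw [h2, add_zero] at h3
    rw [hmu]
    exact h3.symm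
  · intro i
    by_cases hi : i < a
    · unfold ex
      rw [dif_pos hi, dif_pos (by omega), hmu]
    · rw [ex_zero mu (by omega)]
      by_cases hi2 : i < a + l + 1
      · unfold ex
        rw [dif_pos hi2]
        exact (hrow ⟨i, hi2⟩ (by simpa using hi)).symm
      · rw [ex_zero lam (by omega)]
  · rw [hlam']
    exact H530.pad_stmt a b a (l + 1) mu
  · rw [hlam']
    exact H530.pad_stmt b a a (l + 1) mu

/-- A gap of length `G` below row two, the size of the tail. -/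
lemma find_gap2 {b n : ℕ} {lam : Fin n → ℕ} (hl : Antitone lam) {R G : ℝ} (hG : 0 ≤ G)
    (hR5 : 5 ≤ R) (hb1 : 0 < b)
    (hS : ((∑ j ∈ range n, min b (ex lam j) : ℕ) : ℝ) < R * b)
    (hd : R * (R * G + b) + R * b < (dn lam 2 : ℝ)) :
    (dn lam 2 : ℝ) ≤ R * ex lam 2 + R * b ∧
    ∃ i : ℕ, 2 ≤ i ∧ (i : ℝ) ≤ R ∧ G ≤ (ex lam i : ℝ) - ex lam (i + 1) := by
  have hbp : (0 : ℝ) < b := by exact_mod_cast hb1
  obtain ⟨S, hS'⟩ : ∃ S : ℕ, S = ∑ j ∈ range n, min b (ex lam j) := ⟨_, rfl⟩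
  rw [← hS'] at hS
  obtain ⟨N, hN⟩ : ∃ N : ℕ, N = ⌊R⌋₊ := ⟨_, rfl⟩
  have hN1 : (N : ℝ) ≤ R := by
    rw [hN]
    exact Nat.floor_le (by linarith)
  have hN2 : R < N + 1 := by
    rw [hN]
    exact Nat.lt_floor_add_one R
  have hN5 : 5 ≤ N := by
    rw [hN]
    exact Nat.le_floor (by exact_mod_cast hR5)
  rcases fat_alt hl b N hb1 with hf | ⟨hf, hfN⟩
  · exfalso
    rw [← hS'] at hf
    have e1 : (b : ℝ) * (N + 1) ≤ S := by exact_mod_cast hf
    have e2 : R * b < (N + 1) * b := mul_lt_mul_of_pos_right hN2 hbp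
    linarith
  rw [← hS'] at hf
  obtain ⟨r, hr⟩ : ∃ r, N = 2 + r := ⟨N - 2, by omega⟩
  have hrR : (r : ℝ) ≤ R := by
    have : (r : ℝ) ≤ N := by exact_mod_cast (by omega : r ≤ N)
    linarith
  have hr3 : (3 : ℝ) ≤ r := by exact_mod_cast (by omega : 3 ≤ r)
  have hrp : (0 : ℝ) < r := by linarith
  have hrows : (dn lam 2 : ℝ) ≤ r * ex lam 2 + dn lam N := by
    have := dn_le_rows hl 2 r
    rw [← hr] at this
    exact_mod_cast this
  have hdnN : (dn lam N : ℝ) ≤ S := by exact_mod_cast hf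
  have hexN : (ex lam N : ℝ) < b := by exact_mod_cast hfN
  have hex2 : (0 : ℝ) ≤ ex lam 2 := Nat.cast_nonneg _
  have hD : (dn lam 2 : ℝ) ≤ R * ex lam 2 + R * b := by
    have : (r : ℝ) * ex lam 2 ≤ R * ex lam 2 := mul_le_mul_of_nonneg_right hrR hex2
    linarith
  refine ⟨hD, ?_⟩
  have h1 : R * (R * G + b) < R * ex lam 2 := by linarith
  have h2 : R * G + b < ex lam 2 := lt_of_mul_lt_mul_left h1 (by linarith)
  have h3 : (r : ℝ) * G ≤ R * G := mul_le_mul_of_nonneg_right hrR hG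
  obtain ⟨i, hi1, hi2, hi3⟩ := exists_gap (fun j => (ex lam j : ℝ)) G 2 r (by
    rw [← hr]
    linarith)
  refine ⟨i, hi1, ?_, hi3⟩
  have : (i : ℝ) ≤ N := by exact_mod_cast (by omega : i ≤ N)
  linarith

end Vale.Agent.P181.RH.H590
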